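import Crest.Agent.R330.INB
import Crest.Agent.R330.S.Abs
import Crest.Agent.R330.S.Rell
import Crest.Agent.R330.S.Inf
import Crest.Agent.R330.S.Est
import Crest.Agent.R330.S.Sym

/-! # Row 330, S/Main: assembly of block S (owner helper60) -/

set_option autoImplicit false
set_option linter.unusedSectionVars false

noncomputable section

open MeasureTheory Filter Topology
open scoped InnerProductSpace ContDiff Matrix
open Crest.MathPhysics.MatrixQM (GammaNine)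

namespace Crest.Agent.R330.S

variable {E F : Type} [NormedAddCommGroup E] [InnerProductSpace ℝ E] [FiniteDimensional ℝ E]
  [MeasurableSpace E] [BorelSpace E]
  [NormedAddCommGroup F] [InnerProductSpace ℂ F] [FiniteDimensional ℂ F]
  (𝔤 : Lie E) (C : Cl (Th E) F) (σ : Spn)

/-- The class as a submodule. -/
def clsSub (𝒱 : Wts) : Submodule ℂ (X E → F) where
  carrier := {ψ | Cls 𝔤 C σ.G 𝒱 ψ}
  add_mem' := fun {a b} ha hb => by
    simp only [Set.mem_ofPred_eq, cls_iff_ds] at ha hb ⊢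
    exact ha.add hb
  zero_mem' := ⟨⟨contDiff_const, HasCompactSupport.zero⟩,
    fun x ξ => WtAt.of_notMem_tsupport (by simp),
    fun p _ x => WtAt.of_notMem_tsupport (by simp)⟩
  smul_mem' := fun a ψ h => by
    simp only [Set.mem_ofPred_eq, cls_iff_ds] at h ⊢
    exact h.csmul a

/-- The inclusion into `L²`. -/
def jL : clsSub 𝔤 C σ ∅ →ₗ[ℂ] Lp F 2 (volume : Measure (X E)) where
  toFun ψ := (Core.memLp ψ.2.1).toLp ψ.1
  map_add' _ _ := rfl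
  map_smul' _ _ := rfl

/-- The supercharge into `L²`. -/
def QL : clsSub 𝔤 C σ ∅ →ₗ[ℂ] Lp F 2 (volume : Measure (X E)) where
  toFun ψ := (Core.memLp (core_Qe (𝔤 := 𝔤) C σ ψ.2.1)).toLp (Qe 𝔤 C σ 0 ψ.1)
  map_add' φ ψ := by
    rw [← MemLp.toLp_add, MemLp.toLp_eq_toLp_iff]
    refine Eventually.of_forall fun x => ?_
    exact dirac_add C _ _ ((φ.2.1.1.differentiable (by simp)) x) ((ψ.2.1.1.differentiable (by simp)) x)
  map_smul' a ψ := by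
    rw [RingHom.id_apply, ← MemLp.toLp_const_smul, MemLp.toLp_eq_toLp_iff]
    exact Eventually.of_forall fun x => dirac_csmul C _ _ a _ x

variable {𝔤}

theorem main13' [Nontrivial F] (M : MatSys 2 𝔤) :
    ∃ (Ψ : ℕ → X E → F) (En : ℕ → ℝ),
      (∀ j k, ∫ x, ⟪Ψ j x, Ψ k x⟫_ℂ = if j = k then (1 : ℂ) else 0) ∧
      (∀ j, 0 < En j) ∧ Tendsto En atTop atTop ∧ ∀ j, MemLp (Ψ j) 2 volume ∧
        ∃ (φ : ℕ → X E → F) (h : X E → F), (∀ n, Cls 𝔤 C σ.G ∅ (φ n)) ∧ MemLp h 2 volume ∧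
          Tendsto (fun n => eLpNorm (φ n - Ψ j) 2 volume) atTop (𝓝 0) ∧
          Tendsto (fun n => eLpNorm (Qe 𝔤 C σ 0 (φ n) - h) 2 volume) atTop (𝓝 0) ∧
          ∀ ψ, Cls 𝔤 C σ.G ∅ ψ →
            ∫ x, ⟪h x, Qe 𝔤 C σ 0 ψ x⟫_ℂ = (En j : ℂ) * ∫ x, ⟪Ψ j x, ψ x⟫_ℂ := by
  obtain ⟨k₀, hk₀⟩ := kill (𝔤 := 𝔤) C σ
  obtain ⟨m, hm⟩ := exists_nat_ge k₀
  have hm' : k₀ ≤ 4 * (m : ℝ) := by have : (0 : ℝ) ≤ m := Nat.cast_nonneg m; linarith
  set 𝒱 : Wts := sec (4 * m) with h𝒱def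
  have h𝒱 : 𝒱.OK := sec_ok _
  obtain ⟨c, R, hc, hconf⟩ := conf_two C σ M h𝒱 (hk₀ _ hm')
  obtain ⟨K, hK, hap⟩ := apriori C σ h𝒱 hc hconf
  obtain ⟨u, hu1, hu2, hu3⟩ := exists_orth C σ M m
  have hsub : ∀ ψ, Cls 𝔤 C σ.G 𝒱 ψ → Cls 𝔤 C σ.G ∅ ψ := fun ψ h =>
    ⟨h.1, h.2.1, fun p hp => absurd hp (Set.notMem_empty p)⟩
  obtain ⟨Ψ, En, hon, hpos, hlim, hΨ⟩ := abstract (A := 𝒱 × ℝ) (jL 𝔤 C σ) (QL 𝔤 C σ)
    ((clsSub 𝔤 C σ 𝒱).comap (clsSub 𝔤 C σ ∅).subtype) (by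
      intro ε hε
      obtain ⟨I, hI, g, K', hK', hg, H⟩ := ehrling (Y := X E) (F := F) (div_pos hε hK)
      refine ⟨I, hI, fun i => (hg i).toLp (g i), K', hK', fun φ hφ => ?_⟩
      have e1 := H φ.1 φ.2.1
      have e2 := mul_le_mul_of_nonneg_left (hap φ.1 hφ) (div_pos hε hK).le
      rw [← mul_assoc, div_mul_cancel₀ _ hK.ne'] at e2
      simp only [jL, QL, LinearMap.coe_mk, AddHom.coe_mk, norm_toLp_sq, inner_toLp]
      linarith)
    (u := fun n => ⟨u n, hsub _ (hu1 n)⟩) hu1 (by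
      refine linearIndependent_of_ne_zero_of_inner_eq_zero (fun n h0 => ?_) fun a b hab => ?_
      · obtain ⟨x, hx⟩ := hu2 n
        have e1 : u n =ᵐ[volume] 0 :=
          (MemLp.toLp_eq_toLp_iff (Core.memLp (hu1 n).1) MemLp.zero).1 h0
        exact hx (congrFun ((Continuous.ae_eq_iff_eq volume (hu1 n).1.1.continuous
          continuous_zero).1 e1) x)
      · simp only [jL, LinearMap.coe_mk, AddHom.coe_mk, inner_toLp, hu3 a b hab, integral_zero])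
    (fun a ψ => ⟨rotU C σ.G a.1.1.1 a.1.1.2 a.2 ψ.1, rotU_cls C σ (h𝒱 _ a.1.2) _ _ ψ.2⟩)
    (fun a φ ψ => by
      simp only [jL, LinearMap.coe_mk, AddHom.coe_mk, inner_toLp]
      exact rotU_inner C σ (h𝒱 _ a.1.2) _ _ _ _)
    (fun a φ ψ => by
      simp only [QL, LinearMap.coe_mk, AddHom.coe_mk, inner_toLp]
      exact rotU_Q C σ (h𝒱 _ a.1.2) _ _ φ.2 ψ.2)
    (fun a φ hφ => Subtype.ext (rotU_fix C σ a.1.2 a.2 hφ))
    (by
      intro ρ R g t1 t2 t3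
      obtain ⟨φ, hφ, s1, s2⟩ := ws C σ h𝒱 (ρ := fun n => (ρ n).1) (fun n => (ρ n).2) (Lp.memLp R)
        (Lp.memLp g) ((tendsto_toLp_iff (fun n => Core.memLp (ρ n).2.1) R).1 t1)
        ((tendsto_toLp_iff (fun n => Core.memLp (core_Qe (𝔤 := 𝔤) C σ (ρ n).2.1)) g).1 t2) (by
          intro p hp t
          have e := (tendsto_toLp_iff (φ := fun n => rotU C σ.G p.1 p.2 t (ρ n).1 - (ρ n).1)
            (fun n => (Core.memLp (rotU_cls C σ (h𝒱 _ hp) _ _ (ρ n).2).1).sub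
              (Core.memLp (ρ n).2.1)) 0).1 (t3 (⟨p, hp⟩, t))
          refine e.congr fun n => eLpNorm_congr_ae ?_
          filter_upwards [Lp.coeFn_zero F 2 (volume : Measure (X E))] with x hx
          rw [Pi.sub_apply, hx, Pi.zero_apply, sub_zero])
      exact ⟨fun n => ⟨φ n, hsub _ (hφ n)⟩, hφ,
        (tendsto_toLp_iff (fun n => Core.memLp (hφ n).1) R).2 s1,
        (tendsto_toLp_iff (fun n => Core.memLp (core_Qe (𝔤 := 𝔤) C σ (hφ n).1)) g).2 s2⟩)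
  refine ⟨fun j => Ψ j, En, fun j k => ?_, hpos, hlim, fun j => ⟨Lp.memLp _, ?_⟩⟩
  · rw [← L2.inner_def]
    exact orthonormal_iff_ite.1 hon j k
  · obtain ⟨φ, h, t1, t2, t3⟩ := hΨ j
    refine ⟨fun n => (φ n).1, h, fun n => (φ n).2, Lp.memLp _,
      (tendsto_toLp_iff (fun n => Core.memLp (φ n).2.1) _).1 t1,
      (tendsto_toLp_iff (fun n => Core.memLp (core_Qe (𝔤 := 𝔤) C σ (φ n).2.1)) _).1 t2, fun ψ hψ => ?_⟩
    have := t3 ⟨ψ, hψ⟩
    simpa only [jL, QL, LinearMap.coe_mk, AddHom.coe_mk, inner_toLp_right] using this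

end Crest.Agent.R330.S

end
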